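import Vale.Agent.P207.N5.Geo.Asm
import Vale.Agent.P207.N5.H709.MainA
import Vale.Agent.P207.N5.H281.EndQ
import Vale.Agent.P207.N5.H376.SInvMain

/-!
# P207, strict quarter pinching: steps 1 to 7

The stable subspaces are smooth along the unstable leaves.
-/

open Set Filter Topology Metric MeasureTheory
open scoped ContDiff

noncomputable section

namespace Vale.Agent.P207.N4.V

open Vale.Agent.P207.N3

variable [Dim]

/-- **Steps 1 to 7.** -/
theorem steps17 : Steps17 := by
  intro Γ X B V _ _ _ _ _ _ _ _ _ _ _ _ _ _ _ L P
  exact H709.main_of P (H376.sinvG P) P.prod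

end Vale.Agent.P207.N4.V
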